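import Vale.Agent.P193.Steinberg.Elementary

/-!
# Simplicity of the elementary group over a purely infinite simple ring
-/

namespace Vale.Agent.P193.Steinberg

open Matrix
open scoped commutatorElement

variable {n : ℕ} {R : Type*} [Ring R]

theorem exists_mul_ne_zero (hPI : ∀ a : R, a ≠ 0 → ∃ x y, x * a * y = 1) {a b : R} (ha : a ≠ 0)
    (hb : b ≠ 0) : ∃ r, a * r * b ≠ 0 := by
  obtain ⟨x, y, h⟩ := hPI a ha
  refine ⟨y, fun h0 => hb ?_⟩
  calc b = x * a * y * b := by rw [h, one_mul]
    _ = x * (a * y * b) := by simp only [mul_assoc]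
    _ = 0 := by rw [h0, mul_zero]

theorem exists_annihilators (hPI : ∀ a : R, a ≠ 0 → ∃ x y, x * a * y = 1)
    (hzd : ∃ s t : R, s ≠ 0 ∧ t ≠ 0 ∧ t * s = 0) (u : R) :
    ∃ z p : R, z ≠ 0 ∧ p ≠ 0 ∧ z * u * p = 0 := by
  obtain ⟨s, t, hs, ht, hts⟩ := hzd
  by_cases hu : u = 0
  · exact ⟨s, s, hs, hs, by rw [hu, mul_zero, zero_mul]⟩
  · obtain ⟨x, y, h⟩ := hPI u hu
    refine ⟨t * x, y * s, fun h0 => ht ?_, fun h0 => hs ?_, ?_⟩
    · calc t = t * (x * u * y) := by rw [h, mul_one]
        _ = t * x * (u * y) := by simp only [mul_assoc]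
        _ = 0 := by rw [h0, zero_mul]
    · calc s = x * u * y * s := by rw [h, one_mul]
        _ = x * u * (y * s) := by simp only [mul_assoc]
        _ = 0 := by rw [h0, mul_zero]
    · calc t * x * u * (y * s) = t * (x * u * y) * s := by simp only [mul_assoc]
        _ = 0 := by rw [h, mul_one, hts]

variable {N : Subgroup (GLn n R)}
variable (hN : ∀ g ∈ elemGroup n R, ∀ x ∈ N, g * x * g⁻¹ ∈ N)

/-- Entries of a product with `single` in the middle. -/
theorem mul_single_mul_apply (A B : Matrix (Fin n) (Fin n) R) (i j : Fin n) (s : R) (l k : Fin n) :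
    (A * Matrix.single i j s * B) l k = A l i * s * B j k := by
  rw [Matrix.mul_apply, Finset.sum_eq_single j (fun c _ hc => by
    rw [Matrix.mul_single_apply_of_ne _ _ _ _ _ hc, zero_mul]) (by simp),
    Matrix.mul_single_apply_same]

include hN in
/-- A non-diagonal inverse yields an elementary matrix in `N`. -/
theorem exists_elem_of_offdiag (hn : 5 ≤ n) (hPI : ∀ a : R, a ≠ 0 → ∃ x y, x * a * y = 1)
    (hzd : ∃ s t : R, s ≠ 0 ∧ t ≠ 0 ∧ t * s = 0) {g : GLn n R} (hg : g ∈ N) {j a : Fin n}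
    (haj : a ≠ j) (hne : ((g⁻¹ : GLn n R) : Matrix (Fin n) (Fin n) R) j a ≠ 0) :
    ∃ a b : Fin n, a ≠ b ∧ ∃ r : R, r ≠ 0 ∧ elem a b r ∈ N := by
  classical
  set G := (g : Matrix (Fin n) (Fin n) R) with hG
  set H := ((g⁻¹ : GLn n R) : Matrix (Fin n) (Fin n) R) with hH
  have hGH : G * H = 1 := by rw [hG, hH, ← Units.val_mul, mul_inv_cancel, Units.val_one]
  have hHG : H * G = 1 := by rw [hG, hH, ← Units.val_mul, inv_mul_cancel, Units.val_one]
  obtain ⟨i, hij, -, -, -⟩ := exists_index hn j j j j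
  obtain ⟨z, p, hz, hp, hzp⟩ := exists_annihilators hPI hzd (G j i)
  obtain ⟨l, hl⟩ : ∃ l, G l i * p ≠ 0 := by
    by_contra hc
    push Not at hc
    have h1 := congrArg (fun M : Matrix (Fin n) (Fin n) R => M i i * p) hHG
    simp only [Matrix.mul_apply, Matrix.one_apply_eq, Finset.sum_mul, one_mul, mul_assoc, hc,
      mul_zero, Finset.sum_const_zero] at h1
    exact hp h1.symm
  obtain ⟨q, hq⟩ := exists_mul_ne_zero hPI hl hne
  obtain ⟨r, hr⟩ := exists_mul_ne_zero hPI hq hz
  set e := elem i j (p * q) with he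
  set c := ⁅g, e⁆ with hc
  have hcN : c ∈ N := comm_mem_right hN (elem_mem hij _) hg
  set C := (c : Matrix (Fin n) (Fin n) R) with hC
  set C' := ((c⁻¹ : GLn n R) : Matrix (Fin n) (Fin n) R) with hC'
  have hCC : C * C' = 1 := by rw [hC, hC', ← Units.val_mul, mul_inv_cancel, Units.val_one]
  set X := G * Matrix.single i j (p * q) * H with hX
  have hCval : C = (1 + X) * (1 + Matrix.single i j (-(p * q))) := by
    have hGe : G * (1 + Matrix.single i j (p * q)) * H = 1 + X := by
      rw [Matrix.mul_add, Matrix.mul_one, Matrix.add_mul, hGH, ← hX]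
    rw [hC, hc, commutatorElement_def, Units.val_mul, Units.val_mul, Units.val_mul, he,
      val_elem hij, val_inv_elem hij, ← hG, ← hH, hGe]
  have hXe : ∀ l k, X l k = G l i * (p * q) * H j k := mul_single_mul_apply _ _ _ _ _
  have hCne : ∀ l k, k ≠ j → C l k = (1 : Matrix (Fin n) (Fin n) R) l k + X l k := by
    intro l k hk
    rw [hCval, Matrix.mul_add, Matrix.mul_one, Matrix.add_apply,
      Matrix.mul_single_apply_of_ne _ _ _ _ _ hk, add_zero, Matrix.add_apply]
  have hzX : ∀ k, z * X j k = 0 := by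
    intro k
    rw [hXe, show z * (G j i * (p * q) * H j k) = z * G j i * p * (q * H j k) by
      simp only [mul_assoc], hzp, zero_mul]
  have hzC : ∀ k, z * C j k = z * (1 : Matrix (Fin n) (Fin n) R) j k := by
    intro k
    by_cases hk : k = j
    · subst hk
      rw [hCval, Matrix.mul_add, Matrix.mul_one, Matrix.add_apply, Matrix.add_apply, mul_add,
        mul_add, hzX, add_zero, Matrix.mul_single_apply_same, ← mul_assoc, Matrix.add_apply,
        mul_add, hzX, add_zero, Matrix.one_apply_ne hij.symm, mul_zero, zero_mul, add_zero]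
    · rw [hCne j k hk, mul_add, hzX, add_zero]
  have hzC' : ∀ k, z * C' j k = z * (1 : Matrix (Fin n) (Fin n) R) j k := by
    intro k
    have h1 := congrArg (fun M : Matrix (Fin n) (Fin n) R => z * M j k) hCC
    simp only [Matrix.mul_apply, Finset.mul_sum, ← mul_assoc, hzC] at h1
    rw [← h1, Finset.sum_eq_single j (fun b _ hb => by
      rw [Matrix.one_apply_ne hb.symm, mul_zero, zero_mul]) (by simp), Matrix.one_apply_eq, mul_one]
  have hTM : ∀ M : Matrix (Fin n) (Fin n) R,
      (∀ k, z * M j k = z * (1 : Matrix (Fin n) (Fin n) R) j k) →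
      Matrix.single a j (r * z) * M = Matrix.single a j (r * z) := by
    intro M hM
    ext p' k
    by_cases hpa : p' = a
    · subst hpa
      rw [Matrix.single_mul_apply_same, mul_assoc, hM, Matrix.single_apply]
      by_cases hk : j = k <;> simp [hk, Matrix.one_apply]
    · rw [Matrix.single_mul_apply_of_ne _ _ _ _ _ hpa, Matrix.single_apply,
        if_neg (fun h => hpa h.1.symm)]
  set T := Matrix.single a j (r * z) with hT
  set k := elem a j (r * z) with hk
  have hdN : ⁅k, c⁆ ∈ N := comm_mem_left hN (elem_mem haj _) hcN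
  have hD : ((⁅k, c⁆ : GLn n R) : Matrix (Fin n) (Fin n) R) = 1 + T - C * T := by
    have hneg : Matrix.single a j (-(r * z)) = -T := by
      rw [hT, eq_neg_iff_add_eq_zero, ← Matrix.single_add, neg_add_cancel, Matrix.single_zero]
    rw [commutatorElement_def, Units.val_mul, Units.val_mul, Units.val_mul, hk, val_elem haj,
      val_inv_elem haj, ← hC, ← hC', hneg, ← hT, Matrix.add_mul, Matrix.one_mul, hTM C hzC,
      Matrix.mul_add, Matrix.mul_one, Matrix.mul_neg, Matrix.add_mul C T T, Matrix.add_mul,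
      Matrix.add_mul, hCC, hTM C' hzC', Matrix.neg_mul, Matrix.add_mul, Matrix.mul_assoc C T C',
      hTM C' hzC', hT, Matrix.single_mul_single_of_ne (r * z) a j a haj.symm, Matrix.zero_mul,
      add_zero, ← hT, sub_eq_add_neg]
  refine exists_elem_of_column hN hn hdN (j := j) (fun p' q' hq' => ?_) fun h0 => hr ?_
  · rw [hD, Matrix.sub_apply, Matrix.add_apply, hT, Matrix.single_apply,
      Matrix.mul_single_apply_of_ne _ _ _ _ _ hq', if_neg (fun h => hq' h.2.symm), add_zero,
      sub_zero]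
  · rw [h0, Units.val_one] at hD
    have h1 := congrArg (fun M : Matrix (Fin n) (Fin n) R => M l j) hD
    simp only [Matrix.sub_apply, Matrix.add_apply, hT, Matrix.mul_single_apply_same,
      Matrix.single_apply, and_true, hCne l a haj, hXe] at h1
    have h2 : (1 : Matrix (Fin n) (Fin n) R) l a * (r * z) = if a = l then r * z else 0 := by
      rw [Matrix.one_apply]
      by_cases h : l = a <;> simp [h, Ne.symm]
    rw [add_mul, h2] at h1
    have h3 : G l i * (p * q) * H j a * (r * z) = 0 := by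
      rw [← sub_eq_zero] at h1
      rw [← h1]
      abel
    calc G l i * p * q * H j a * r * z = G l i * (p * q) * H j a * (r * z) := by
          simp only [mul_assoc]
      _ = 0 := h3

include hN in
/-- A nontrivial normal subgroup contains a nontrivial elementary matrix. -/
theorem exists_elem_mem (hn : 5 ≤ n) (hPI : ∀ a : R, a ≠ 0 → ∃ x y, x * a * y = 1)
    (hzd : ∃ s t : R, s ≠ 0 ∧ t ≠ 0 ∧ t * s = 0)
    (hcenter : ∀ z : R, (∀ r, z * r = r * z) → z = 0 ∨ z = 1) {g : GLn n R} (hg : g ∈ N)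
    (hg1 : g ≠ 1) : ∃ a b : Fin n, a ≠ b ∧ ∃ r : R, r ≠ 0 ∧ elem a b r ∈ N := by
  classical
  set G := (g : Matrix (Fin n) (Fin n) R) with hG
  set H := ((g⁻¹ : GLn n R) : Matrix (Fin n) (Fin n) R) with hH
  by_cases hoff : ∃ j a, a ≠ j ∧ H j a ≠ 0
  · obtain ⟨j, a, haj, h⟩ := hoff
    exact exists_elem_of_offdiag hN hn hPI hzd hg haj h
  push Not at hoff
  have hGH : G * H = 1 := by rw [hG, hH, ← Units.val_mul, mul_inv_cancel, Units.val_one]
  have hHG : H * G = 1 := by rw [hG, hH, ← Units.val_mul, inv_mul_cancel, Units.val_one]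
  have hGHk : ∀ l k, G l k * H k k = (1 : Matrix (Fin n) (Fin n) R) l k := by
    intro l k
    rw [← hGH, Matrix.mul_apply,
      Finset.sum_eq_single k (fun b _ hb => by rw [hoff b k hb.symm, mul_zero]) (by simp)]
  have hHGk : ∀ l k, H l l * G l k = (1 : Matrix (Fin n) (Fin n) R) l k := by
    intro l k
    rw [← hHG, Matrix.mul_apply,
      Finset.sum_eq_single l (fun b _ hb => by rw [hoff l b hb, zero_mul]) (by simp)]
  have hGoff : ∀ l k, l ≠ k → G l k = 0 := by
    intro l k h
    calc G l k = G l k * H k k * G k k := by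
          rw [mul_assoc, hHGk, Matrix.one_apply_eq, mul_one]
      _ = 0 := by rw [hGHk, Matrix.one_apply_ne h, zero_mul]
  by_contra hno
  have hcomm : ∀ i j, i ≠ j → ∀ r, H i i * r * G j j = r := by
    intro i j hij r
    by_contra hne
    have hconj : g⁻¹ * elem i j r * g = elem i j (H i i * r * G j j) := by
      refine Units.ext ?_
      rw [Units.val_mul, Units.val_mul, val_elem hij, val_elem hij, ← hG, ← hH, Matrix.mul_add,
        Matrix.mul_one, Matrix.add_mul, hHG]
      congr 1
      ext l k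
      rw [mul_single_mul_apply, Matrix.single_apply]
      by_cases hl : i = l
      · subst hl
        by_cases hk : j = k
        · subst hk; simp
        · simp [hk, hGoff j k hk]
      · simp [hl, hoff l i hl]
    have h1 := comm_mem_right hN (elem_mem hij r) (inv_mem hg)
    rw [commutatorElement_def, inv_inv, hconj, ← elem_rels.neg hij, ← elem_add hij,
      ← sub_eq_add_neg] at h1
    exact hno ⟨i, j, hij, _, sub_ne_zero.2 hne, h1⟩
  have hdiag : ∀ i j, G i i = G j j := by
    intro i j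
    rcases eq_or_ne i j with rfl | hij
    · rfl
    have h1 := hcomm i j hij 1
    rw [mul_one] at h1
    calc G i i = G i i * (H i i * G j j) := by rw [h1, mul_one]
      _ = G j j := by rw [← mul_assoc, hGHk, Matrix.one_apply_eq, one_mul]
  refine hg1 (Units.ext ?_)
  ext l k
  rcases eq_or_ne l k with rfl | hlk
  · rw [Units.val_one, Matrix.one_apply_eq, ← hG]
    rcases hcenter (G l l) (fun r => by
      obtain ⟨j, hjl, -, -, -⟩ := exists_index hn l l l l
      calc G l l * r = G l l * (H l l * r * G j j) := by rw [hcomm l j hjl.symm r]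
        _ = r * G j j := by rw [← mul_assoc, ← mul_assoc, hGHk, Matrix.one_apply_eq, one_mul]
        _ = r * G l l := by rw [hdiag j l]) with h0 | h0
    · have h1 : (0 : R) = 1 := by
        have h2 := hGHk l l
        rwa [h0, zero_mul, Matrix.one_apply_eq] at h2
      rw [h0, h1]
    · exact h0
  · rw [Units.val_one, Matrix.one_apply_ne hlk, ← hG]
    exact hGoff l k hlk

/-- The elementary group of a purely infinite simple ring with trivial centre is simple. -/
theorem isSimpleGroup_elemGroup (hn : 5 ≤ n) (hPI : ∀ a : R, a ≠ 0 → ∃ x y, x * a * y = 1)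
    (hzd : ∃ s t : R, s ≠ 0 ∧ t ≠ 0 ∧ t * s = 0)
    (hcenter : ∀ z : R, (∀ r, z * r = r * z) → z = 0 ∨ z = 1) :
    IsSimpleGroup (elemGroup n R) := by
  obtain ⟨i, -, -, -, -⟩ := exists_index hn ⟨0, by omega⟩ ⟨0, by omega⟩ ⟨0, by omega⟩ ⟨0, by omega⟩
  obtain ⟨j, hji, -, -, -⟩ := exists_index hn i i i i
  obtain ⟨s, -, hs, -, -⟩ := id hzd
  have hne : elem i j s ≠ 1 := by
    intro h
    have h1 := congrArg (fun u : GLn n R => (u : Matrix (Fin n) (Fin n) R) i j) h
    simp only [val_elem hji.symm, Units.val_one, Matrix.add_apply, Matrix.one_apply_ne hji.symm,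
      Matrix.single_apply_same, zero_add] at h1
    exact hs h1
  have : Nontrivial (elemGroup n R) :=
    ⟨⟨⟨elem i j s, elem_mem hji.symm s⟩, 1, fun h => hne (congrArg Subtype.val h)⟩⟩
  refine ⟨fun M hM => or_iff_not_imp_left.2 fun hbot => ?_⟩
  obtain ⟨g0, hg0⟩ := Subgroup.ne_bot_iff_exists_ne_one.1 hbot
  obtain ⟨g, hgM⟩ := g0
  have hg1 : g ≠ 1 := fun h => hg0 (Subtype.ext h)
  let N := M.map (elemGroup n R).subtype
  have hN : ∀ x ∈ elemGroup n R, ∀ y ∈ N, x * y * x⁻¹ ∈ N := by
    rintro x hx _ ⟨y, hy, rfl⟩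
    let xs : elemGroup n R := ⟨x, hx⟩
    refine Subgroup.mem_map.2 ⟨xs * y * xs⁻¹, hM.conj_mem y hy xs, ?_⟩
    rw [map_mul, map_mul, map_inv, Subgroup.coe_subtype]
  have hgN : (g : GLn n R) ∈ N := ⟨g, hgM, rfl⟩
  obtain ⟨a, b, hab, r, hr, hmem⟩ :=
    exists_elem_mem hN hn hPI hzd hcenter hgN (fun h => hg1 (Subtype.ext h))
  rw [eq_top_iff]
  intro x _
  obtain ⟨y, hy, hyx⟩ := le_of_elem_mem hN hn hPI hab hr hmem x.2
  rwa [← Subtype.ext hyx]

end Vale.Agent.P193.Steinberg
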