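import Vale.Agent.P193.Steinberg.FinPres
import Vale.Agent.P193.Steinberg.Simple

/-!
# A finitely presented simple group from a purely infinite simple ring, and the Whitehead lemma
-/

namespace Vale.Agent.P193.Steinberg

open Matrix
open scoped commutatorElement

variable {n : ℕ} {R : Type*} [Ring R]

/-- If the Steinberg group injects into the invertible matrices, the elementary group of a
finitely presented purely infinite simple ring with trivial centre is a finitely presented simple
group. -/
theorem elemGroup_isFinitelyPresented_isSimple {X : Type*} [Finite X] (hn : 5 ≤ n)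
    (π : FreeAlgebra ℤ X →+* R) (hπ : Function.Surjective π) {F : Set (FreeAlgebra ℤ X)}
    (hF : F.Finite) (hker : ∀ a, π a = 0 → a ∈ TwoSidedIdeal.span F) (hF0 : ∀ f ∈ F, π f = 0)
    (hinj : Function.Injective (toGL : St n R →* GLn n R))
    (hPI : ∀ a : R, a ≠ 0 → ∃ x y, x * a * y = 1)
    (hzd : ∃ s t : R, s ≠ 0 ∧ t ≠ 0 ∧ t * s = 0)
    (hcenter : ∀ z : R, (∀ r, z * r = r * z) → z = 0 ∨ z = 1) :
    Group.IsFinitelyPresented (elemGroup n R) ∧ IsSimpleGroup (elemGroup n R) :=
  ⟨@Group.IsFinitelyPresented.equiv _ _ _ _
      ((MonoidHom.ofInjective hinj).trans (MulEquiv.subgroupCongr range_toGL))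
      (St.isFinitelyPresented hn π hπ hF hker hF0),
    isSimpleGroup_elemGroup hn hPI hzd hcenter⟩

theorem update_mul_update (i : Fin n) (x y : R) (k : Fin n) :
    Function.update (1 : Fin n → R) i x k * Function.update (1 : Fin n → R) i y k =
      Function.update (1 : Fin n → R) i (x * y) k := by
  rcases eq_or_ne k i with rfl | hki
  · simp
  · simp [Function.update_of_ne hki]

/-- The diagonal matrix with a given unit at one place. -/
def diagUnit (i : Fin n) : Rˣ →* GLn n R where
  toFun u :=
    { val := Matrix.diagonal (Function.update 1 i (u : R))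
      inv := Matrix.diagonal (Function.update 1 i ((u⁻¹ : Rˣ) : R))
      val_inv := by
        rw [Matrix.diagonal_mul_diagonal]
        simp only [update_mul_update, Units.mul_inv]
        simp
      inv_val := by
        rw [Matrix.diagonal_mul_diagonal]
        simp only [update_mul_update, Units.inv_mul]
        simp }
  map_one' := by ext : 1; simp
  map_mul' u v := by
    refine Units.ext ?_
    simp only [Units.val_mul, Matrix.diagonal_mul_diagonal, update_mul_update]

theorem diagUnit_injective (i : Fin n) : Function.Injective (diagUnit (R := R) i) := by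
  intro u v h
  have h1 := congrArg (fun g : GLn n R => (g : Matrix (Fin n) (Fin n) R) i i) h
  simp [diagUnit] at h1
  exact Units.ext h1

theorem hyperbolic_mem {i j : Fin n} (hij : i ≠ j) (u : Rˣ) :
    diagUnit i u * diagUnit j u⁻¹ ∈ elemGroup n R := by
  have key : diagUnit i u * diagUnit j u⁻¹ =
      elem i j (u : R) * elem j i (-((u⁻¹ : Rˣ) : R)) * elem i j (u : R) *
        (elem i j (-1) * elem j i 1 * elem i j (-1)) := by
    have hneg : ∀ (a b : Fin n) (x : R), Matrix.single a b (-x) = -Matrix.single a b x := by
      intro a b x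
      rw [eq_neg_iff_add_eq_zero, ← Matrix.single_add, neg_add_cancel, Matrix.single_zero]
    have hdiag : ∀ (k : Fin n) (x : R),
        Matrix.diagonal (Function.update 1 k x) = 1 + Matrix.single k k x - Matrix.single k k 1 := by
      intro k x
      ext a b
      rcases eq_or_ne a b with rfl | hab
      · rcases eq_or_ne a k with rfl | hak
        · simp
        · simp [Function.update_of_ne hak, Matrix.single_apply, hak.symm]
      · have hk : ¬(k = a ∧ k = b) := fun h => hab (h.1.symm.trans h.2)
        simp [Matrix.diagonal_apply_ne _ hab, Matrix.one_apply_ne hab, Matrix.single_apply, hk]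
    refine Units.ext ?_
    simp only [diagUnit, MonoidHom.coe_mk, OneHom.coe_mk, Units.val_mul, val_elem hij,
      val_elem hij.symm, hdiag, Matrix.mul_add, Matrix.add_mul, Matrix.mul_one, Matrix.one_mul,
      Matrix.mul_sub, Matrix.sub_mul, Matrix.single_mul_single_same, ne_eq, hij, hij.symm,
      not_false_eq_true, Matrix.single_mul_single_of_ne, add_zero, sub_zero, zero_add, hneg,
      Matrix.neg_mul, Matrix.mul_neg, mul_neg, neg_mul, mul_one, one_mul, neg_neg,
      Units.mul_inv, Units.inv_mul, Matrix.zero_mul, neg_zero, inv_inv]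
    abel
  rw [key]
  have h1 : ∀ r : R, elem i j r ∈ elemGroup n R := elem_mem hij
  have h2 : ∀ r : R, elem j i r ∈ elemGroup n R := elem_mem hij.symm
  exact mul_mem (mul_mem (mul_mem (h1 _) (h2 _)) (h1 _))
    (mul_mem (mul_mem (h1 _) (h2 _)) (h1 _))

/-- The Whitehead lemma: a commutator of units, placed on the diagonal, is elementary. -/
theorem diagUnit_commutator_mem {i j : Fin n} (hij : i ≠ j) (u v : Rˣ) :
    diagUnit i ⁅u, v⁆ ∈ elemGroup n R := by
  have hc : ∀ a b : Rˣ, Commute (diagUnit i a) (diagUnit j b) := by
    intro a b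
    refine Units.ext ?_
    simp only [diagUnit, MonoidHom.coe_mk, OneHom.coe_mk, Units.val_mul,
      Matrix.diagonal_mul_diagonal']
    congr 1
    funext k
    rcases eq_or_ne k i with rfl | hki
    · simp [Function.update_of_ne hij]
    · simp [Function.update_of_ne hki]
  have h := mul_mem (mul_mem (hyperbolic_mem hij u) (hyperbolic_mem hij v))
    (hyperbolic_mem hij (v * u)⁻¹)
  have e : diagUnit i ⁅u, v⁆ = diagUnit i u * diagUnit j u⁻¹ * (diagUnit i v * diagUnit j v⁻¹) *
      (diagUnit i (v * u)⁻¹ * diagUnit j (v * u)⁻¹⁻¹) := by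
    have hh : ∀ a a' b b' : Rˣ, diagUnit i a * diagUnit j a' * (diagUnit i b * diagUnit j b') =
        diagUnit i (a * b) * diagUnit j (a' * b') := by
      intro a a' b b'
      rw [map_mul, map_mul, Commute.mul_mul_mul_comm (hc b a').symm]
    rw [hh, hh, show u⁻¹ * v⁻¹ * (v * u)⁻¹⁻¹ = 1 by group, map_one, mul_one]
    congr 1
    rw [commutatorElement_def]
    group
  rw [e]
  exact h

/-- Every element of the derived group of the units lies in the elementary group. -/
theorem diagUnit_mem_of_mem_commutator {i j : Fin n} (hij : i ≠ j) {u : Rˣ}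
    (hu : u ∈ commutator Rˣ) : diagUnit i u ∈ elemGroup n R := by
  have hle : commutator Rˣ ≤ (elemGroup n R).comap (diagUnit i) := by
    rw [commutator_def, Subgroup.commutator_le]
    exact fun a _ b _ => diagUnit_commutator_mem hij a b
  exact hle hu

end Vale.Agent.P193.Steinberg
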