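import Mathlib

/-!
# Steinberg groups: definitions and group-theoretic lemmas
-/

namespace Vale.Agent.P193.Steinberg

open scoped commutatorElement

/-- Ordered pairs of distinct indices. -/
abbrev Idx (n : ℕ) : Type := {p : Fin n × Fin n // p.1 ≠ p.2}

/-- The Steinberg relations for a family of elements `x i j r`. -/
structure Rels {n : ℕ} {R G : Type*} [Ring R] [Group G] (x : Fin n → Fin n → R → G) : Prop where
  add : ∀ i j, i ≠ j → ∀ r s, x i j (r + s) = x i j r * x i j s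
  mul : ∀ i j k, i ≠ j → j ≠ k → i ≠ k → ∀ r s, ⁅x i j r, x j k s⁆ = x i k (r * s)
  comm : ∀ i j k l, i ≠ j → k ≠ l → j ≠ k → i ≠ l → ∀ r s, Commute (x i j r) (x k l s)

/-- The defining relations of the Steinberg group. -/
def rels (n : ℕ) (R : Type*) [Ring R] : Set (FreeGroup (Idx n × R)) :=
  {w | (∃ (p : Idx n) (r s : R), w = FreeGroup.of (p, r) * FreeGroup.of (p, s) * (FreeGroup.of (p, r + s))⁻¹) ∨
    (∃ (p q t : Idx n) (r s : R), p.1.2 = q.1.1 ∧ t.1.1 = p.1.1 ∧ t.1.2 = q.1.2 ∧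
      w = ⁅FreeGroup.of (p, r), FreeGroup.of (q, s)⁆ * (FreeGroup.of (t, r * s))⁻¹) ∨
    (∃ (p q : Idx n) (r s : R), p.1.2 ≠ q.1.1 ∧ p.1.1 ≠ q.1.2 ∧
      w = ⁅FreeGroup.of (p, r), FreeGroup.of (q, s)⁆)}

/-- The Steinberg group. -/
abbrev St (n : ℕ) (R : Type*) [Ring R] : Type _ := PresentedGroup (rels n R)

variable {n : ℕ} {R : Type*} [Ring R] {G : Type*} [Group G]

/-- The generators of the Steinberg group; the junk value at `i = j` is `1`. -/
noncomputable def xst (i j : Fin n) (r : R) : St n R :=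
  if h : i ≠ j then PresentedGroup.of ((⟨(i, j), h⟩ : Idx n), r) else 1

theorem xst_eq (p : Idx n) (r : R) :
    xst p.1.1 p.1.2 r = PresentedGroup.of (rels := rels n R) (p, r) := by
  simp [xst, p.2]

theorem xst_rels : Rels (xst (n := n) (R := R)) where
  add i j h r s := by
    have hm : FreeGroup.of ((⟨(i, j), h⟩ : Idx n), r) * FreeGroup.of ((⟨(i, j), h⟩ : Idx n), s) *
        (FreeGroup.of ((⟨(i, j), h⟩ : Idx n), r + s))⁻¹ ∈ rels n R :=
      Or.inl ⟨_, r, s, rfl⟩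
    simpa [xst, h, PresentedGroup.of] using (PresentedGroup.mk_eq_mk_of_mul_inv_mem hm).symm
  mul i j k hij hjk hik r s := by
    have hm : ⁅FreeGroup.of ((⟨(i, j), hij⟩ : Idx n), r), FreeGroup.of ((⟨(j, k), hjk⟩ : Idx n), s)⁆ *
        (FreeGroup.of ((⟨(i, k), hik⟩ : Idx n), r * s))⁻¹ ∈ rels n R :=
      Or.inr (Or.inl ⟨⟨(i, j), hij⟩, ⟨(j, k), hjk⟩, ⟨(i, k), hik⟩, r, s, rfl, rfl, rfl, rfl⟩)
    have h := PresentedGroup.mk_eq_mk_of_mul_inv_mem hm
    rw [map_commutatorElement] at h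
    rw [xst, xst, xst, dif_pos hij, dif_pos hjk, dif_pos hik]
    exact h
  comm i j k l hij hkl hjk hil r s := by
    have hm : ⁅FreeGroup.of ((⟨(i, j), hij⟩ : Idx n), r), FreeGroup.of ((⟨(k, l), hkl⟩ : Idx n), s)⁆ ∈
        rels n R := Or.inr (Or.inr ⟨⟨(i, j), hij⟩, ⟨(k, l), hkl⟩, r, s, hjk, hil, rfl⟩)
    have h := PresentedGroup.one_of_mem hm
    rw [map_commutatorElement] at h
    rw [xst, xst, dif_pos hij, dif_pos hkl, ← commutatorElement_eq_one_iff_commute]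
    exact h

/-- The homomorphism defined by a family satisfying the Steinberg relations. -/
noncomputable def lift {x : Fin n → Fin n → R → G} (h : Rels x) : St n R →* G :=
  PresentedGroup.toGroup (f := fun a => x a.1.1.1 a.1.1.2 a.2) (by
    rintro w (⟨p, r, s, rfl⟩ | ⟨⟨⟨i, j⟩, hp⟩, ⟨⟨j', k⟩, hq⟩, ⟨⟨i', k'⟩, ht⟩, r, s, e1, e2, e3, rfl⟩ |
      ⟨p, q, r, s, h1, h2, rfl⟩)
    · simp [h.add _ _ p.2]
    · obtain rfl : j = j' := e1
      obtain rfl : i' = i := e2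
      obtain rfl : k' = k := e3
      simp only [map_mul, map_inv, map_commutatorElement, FreeGroup.lift_apply_of]
      rw [h.mul i' j k' hp hq ht, mul_inv_cancel]
    · simp only [map_commutatorElement, FreeGroup.lift_apply_of]
      exact commutatorElement_eq_one_iff_commute.2 (h.comm _ _ _ _ p.2 q.2 h1 h2 r s))

theorem lift_xst {x : Fin n → Fin n → R → G} (h : Rels x) {i j : Fin n} (hij : i ≠ j) (r : R) :
    lift h (xst i j r) = x i j r := by
  rw [xst, dif_pos hij, lift, PresentedGroup.toGroup.of]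

theorem hom_ext {f g : St n R →* G} (h : ∀ i j r, i ≠ j → f (xst i j r) = g (xst i j r)) : f = g :=
  PresentedGroup.ext fun a => by
    obtain ⟨p, r⟩ := a
    rw [← xst_eq]
    exact h _ _ r p.2

theorem closure_xst : Subgroup.closure {g : St n R | ∃ i j r, i ≠ j ∧ g = xst i j r} = ⊤ := by
  rw [← top_le_iff, ← PresentedGroup.closure_range_of]
  refine Subgroup.closure_mono ?_
  rintro _ ⟨⟨p, r⟩, rfl⟩
  exact ⟨_, _, r, p.2, (xst_eq p r).symm⟩

theorem Rels.zero {x : Fin n → Fin n → R → G} (h : Rels x) {i j : Fin n} (hij : i ≠ j) :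
    x i j 0 = 1 := by
  have := h.add i j hij 0 0
  rw [add_zero] at this
  exact left_eq_mul.1 this

theorem Rels.neg {x : Fin n → Fin n → R → G} (h : Rels x) {i j : Fin n} (hij : i ≠ j) (r : R) :
    x i j (-r) = (x i j r)⁻¹ := by
  have := h.add i j hij r (-r)
  rw [add_neg_cancel, h.zero hij] at this
  exact eq_inv_of_mul_eq_one_right this.symm

/-- The three-term commutator identity behind the independence of the middle index. -/
theorem comm_assoc {u v z : G} (huz : Commute u z)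
    (hpq : Commute ⁅u, v⁆ ⁅v, z⁆) (hqv : Commute ⁅v, z⁆ v)
    (hqz : Commute ⁅v, z⁆ z) : ⁅⁅u, v⁆, z⁆ = ⁅u, ⁅v, z⁆⁆ := by
  set p := ⁅u, v⁆ with hp
  set q := ⁅v, z⁆ with hq
  have hvz : v * z = q * (z * v) := by rw [hq, commutatorElement_def]; group
  have h1 : v⁻¹ * z * v = q⁻¹ * z := by
    calc v⁻¹ * z * v = v⁻¹ * q⁻¹ * (v * z) := by rw [hvz]; group
      _ = q⁻¹ * v⁻¹ * (v * z) := by rw [(hqv.symm.inv_inv).eq]
      _ = q⁻¹ * z := by group
  have h2 : z * v⁻¹ = v⁻¹ * (q * z) := by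
    calc z * v⁻¹ = v⁻¹ * (v * z) * v⁻¹ := by group
      _ = v⁻¹ * (q * z) := by rw [hvz]; group
  have hpz : ⁅p, z⁆ = q⁻¹ * ⁅u, q⁆ * q := by
    have e1 : p * z * p⁻¹ = u * v * u⁻¹ * (v⁻¹ * z * v) * u * v⁻¹ * u⁻¹ := by
      rw [hp, commutatorElement_def]; group
    have e2 : u * v * u⁻¹ = p * v := by rw [hp, commutatorElement_def]; group
    have e3 : u * v⁻¹ * u⁻¹ = (p * v)⁻¹ := by rw [hp, commutatorElement_def]; group
    have e4 : u * q * u⁻¹ = ⁅u, q⁆ * q := by rw [commutatorElement_def]; group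
    have e5 : p * v * q⁻¹ * (p * v)⁻¹ = q⁻¹ := by
      rw [((hpq.mul_left hqv.symm).inv_right).eq]; group
    calc ⁅p, z⁆ = p * z * p⁻¹ * z⁻¹ := commutatorElement_def _ _
      _ = u * v * u⁻¹ * q⁻¹ * (z * u) * v⁻¹ * u⁻¹ * z⁻¹ := by rw [e1, h1]; group
      _ = u * v * u⁻¹ * q⁻¹ * u * (z * v⁻¹) * u⁻¹ * z⁻¹ := by rw [← huz.eq]; group
      _ = (u * v * u⁻¹) * q⁻¹ * (u * v⁻¹ * u⁻¹) * (u * q * u⁻¹) * (u * z) * u⁻¹ * z⁻¹ := by
        rw [h2]; group
      _ = p * v * q⁻¹ * (p * v)⁻¹ * (⁅u, q⁆ * q) * (z * u) * u⁻¹ * z⁻¹ := by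
        rw [e2, e3, e4, huz.eq]
      _ = q⁻¹ * ⁅u, q⁆ * q := by rw [e5]; group
  have hc : Commute q ⁅p, z⁆ := by
    rw [commutatorElement_def]
    exact ((hpq.symm.mul_right hqz).mul_right hpq.symm.inv_right).mul_right hqz.inv_right
  calc ⁅p, z⁆ = q * ⁅p, z⁆ * q⁻¹ := by rw [hc.eq]; group
    _ = ⁅u, q⁆ := by rw [hpz]; group

theorem commutator_mul_left {a b c : G} (h : Commute a ⁅b, c⁆) :
    ⁅a * b, c⁆ = ⁅b, c⁆ * ⁅a, c⁆ := by
  calc ⁅a * b, c⁆ = a * ⁅b, c⁆ * a⁻¹ * ⁅a, c⁆ := by simp only [commutatorElement_def]; group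
    _ = ⁅b, c⁆ * ⁅a, c⁆ := by rw [h.eq]; group

theorem commutator_mul_right {a b c : G} (h : Commute b ⁅a, c⁆) :
    ⁅a, b * c⁆ = ⁅a, b⁆ * ⁅a, c⁆ := by
  calc ⁅a, b * c⁆ = ⁅a, b⁆ * (b * ⁅a, c⁆ * b⁻¹) := by simp only [commutatorElement_def]; group
    _ = ⁅a, b⁆ * ⁅a, c⁆ := by rw [h.eq]; group

theorem commutator_zpow_left {a c : G} (h : Commute a ⁅a, c⁆) (m : ℤ) :
    ⁅a ^ m, c⁆ = ⁅a, c⁆ ^ m := by
  set r := ⁅a, c⁆ with hr
  have h1 : c * a * c⁻¹ = r⁻¹ * a := by rw [hr, commutatorElement_def]; group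
  have h2 : c * a ^ m * c⁻¹ = (r⁻¹) ^ m * a ^ m := by
    rw [← conj_zpow, h1, (h.symm.inv_left).mul_zpow]
  calc ⁅a ^ m, c⁆ = a ^ m * (c * a ^ m * c⁻¹)⁻¹ := by rw [commutatorElement_def]; group
    _ = r ^ m := by rw [h2, inv_zpow]; group

theorem exists_index (hn : 5 ≤ n) (a b c d : Fin n) :
    ∃ k, k ≠ a ∧ k ≠ b ∧ k ≠ c ∧ k ≠ d := by
  have h : ({a, b, c, d} : Finset (Fin n))ᶜ.Nonempty := by
    rw [← Finset.card_pos, Finset.card_compl, Fintype.card_fin]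
    have : ({a, b, c, d} : Finset (Fin n)).card ≤ 4 := Finset.card_le_four
    omega
  obtain ⟨k, hk⟩ := h
  simp only [Finset.mem_compl, Finset.mem_insert, Finset.mem_singleton, not_or] at hk
  exact ⟨k, hk⟩

end Vale.Agent.P193.Steinberg
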