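import Vale.Agent.P193.Steinberg.Basic

/-!
# The elementary group and its normal subgroups
-/

namespace Vale.Agent.P193.Steinberg

open Matrix
open scoped commutatorElement

variable {n : ℕ} {R : Type*} [Ring R]

/-- The group of invertible matrices. -/
abbrev GLn (n : ℕ) (R : Type*) [Ring R] : Type _ := (Matrix (Fin n) (Fin n) R)ˣ

/-- The elementary matrix `1 + r e_{ij}`; the junk value at `i = j` is `1`. -/
def elem (i j : Fin n) (r : R) : GLn n R :=
  if h : i ≠ j then
    { val := 1 + Matrix.single i j r
      inv := 1 + Matrix.single i j (-r)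
      val_inv := by
        rw [Matrix.mul_add, Matrix.add_mul, Matrix.add_mul, Matrix.mul_one, Matrix.one_mul,
          Matrix.single_mul_single_of_ne r i j i h.symm, add_zero, Matrix.mul_one,
          add_assoc, ← Matrix.single_add, add_neg_cancel, Matrix.single_zero, add_zero]
      inv_val := by
        rw [Matrix.mul_add, Matrix.add_mul, Matrix.add_mul, Matrix.mul_one, Matrix.one_mul,
          Matrix.single_mul_single_of_ne (-r) i j i h.symm, add_zero, Matrix.mul_one,
          add_assoc, ← Matrix.single_add, neg_add_cancel, Matrix.single_zero, add_zero] }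
  else 1

theorem val_elem {i j : Fin n} (h : i ≠ j) (r : R) :
    (elem i j r : Matrix (Fin n) (Fin n) R) = 1 + Matrix.single i j r := by
  rw [elem, dif_pos h]

theorem val_inv_elem {i j : Fin n} (h : i ≠ j) (r : R) :
    (((elem i j r)⁻¹ : GLn n R) : Matrix (Fin n) (Fin n) R) = 1 + Matrix.single i j (-r) := by
  rw [elem, dif_pos h]
  rfl

theorem elem_add {i j : Fin n} (h : i ≠ j) (r s : R) : elem i j (r + s) = elem i j r * elem i j s := by
  refine Units.ext ?_
  rw [Units.val_mul, val_elem h, val_elem h, val_elem h, Matrix.add_mul, Matrix.mul_add,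
    Matrix.mul_add, Matrix.one_mul, Matrix.one_mul, Matrix.mul_one,
    Matrix.single_mul_single_of_ne r i j i h.symm, add_zero, Matrix.single_add, add_assoc,
    add_comm (Matrix.single i j r)]

theorem elem_rels : Rels (elem (n := n) (R := R)) where
  add i j h r s := elem_add h r s
  mul i j k hij hjk hik r s := by
    rw [commutatorElement_def]
    refine Units.ext ?_
    have hneg : ∀ (a b : Fin n) (x : R), Matrix.single a b (-x) = -Matrix.single a b x := by
      intro a b x
      rw [eq_neg_iff_add_eq_zero, ← Matrix.single_add, neg_add_cancel, Matrix.single_zero]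
    simp only [Units.val_mul, val_elem hij, val_elem hjk, val_elem hik, val_inv_elem hij,
      val_inv_elem hjk, Matrix.mul_add, Matrix.add_mul, Matrix.mul_one, Matrix.one_mul,
      Matrix.single_mul_single_same, ne_eq, hij.symm, hjk.symm, hik.symm, not_false_eq_true,
      Matrix.single_mul_single_of_ne, add_zero, zero_add, mul_neg, neg_mul, neg_neg,
      hneg, Matrix.neg_mul, Matrix.mul_neg, neg_zero]
    abel
  comm i j k l hij hkl hjk hil r s := by
    refine Units.ext ?_
    simp only [Units.val_mul, val_elem hij, val_elem hkl, Matrix.mul_add, Matrix.add_mul,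
      Matrix.mul_one, Matrix.one_mul, ne_eq, hjk, hil.symm, not_false_eq_true,
      Matrix.single_mul_single_of_ne, add_zero]
    abel

/-- The homomorphism from the Steinberg group to invertible matrices. -/
noncomputable def toGL : St n R →* GLn n R := lift elem_rels

/-- The elementary group. -/
def elemGroup (n : ℕ) (R : Type*) [Ring R] : Subgroup (GLn n R) :=
  Subgroup.closure {g | ∃ i j r, i ≠ j ∧ g = elem i j r}

theorem toGL_xst {i j : Fin n} (h : i ≠ j) (r : R) : toGL (xst i j r) = elem i j r :=
  lift_xst elem_rels h r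

theorem range_toGL : (toGL : St n R →* GLn n R).range = elemGroup n R := by
  rw [MonoidHom.range_eq_map, ← closure_xst, MonoidHom.map_closure, elemGroup]
  congr 1
  ext g
  constructor
  · rintro ⟨_, ⟨i, j, r, h, rfl⟩, rfl⟩
    exact ⟨i, j, r, h, toGL_xst h r⟩
  · rintro ⟨i, j, r, h, rfl⟩
    exact ⟨_, ⟨i, j, r, h, rfl⟩, toGL_xst h r⟩

theorem elem_mem {i j : Fin n} (h : i ≠ j) (r : R) : elem i j r ∈ elemGroup n R :=
  Subgroup.subset_closure ⟨i, j, r, h, rfl⟩

variable {N : Subgroup (GLn n R)}
variable (hN : ∀ g ∈ elemGroup n R, ∀ x ∈ N, g * x * g⁻¹ ∈ N)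

include hN in
theorem comm_mem_left {g x : GLn n R} (hg : g ∈ elemGroup n R) (hx : x ∈ N) : ⁅g, x⁆ ∈ N :=
  mul_mem (hN g hg x hx) (inv_mem hx)

include hN in
theorem comm_mem_right {g x : GLn n R} (hg : g ∈ elemGroup n R) (hx : x ∈ N) : ⁅x, g⁆ ∈ N := by
  rw [← commutatorElement_inv]
  exact inv_mem (comm_mem_left hN hg hx)

include hN in
/-- A normal subgroup with one nontrivial elementary matrix contains all of them. -/
theorem le_of_elem_mem (hn : 5 ≤ n) (hPI : ∀ a : R, a ≠ 0 → ∃ x y, x * a * y = 1)
    {a b : Fin n} (hab : a ≠ b) {r : R} (hr : r ≠ 0) (h : elem a b r ∈ N) :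
    elemGroup n R ≤ N := by
  have hrels := elem_rels (n := n) (R := R)
  obtain ⟨c, hca, hcb, -, -⟩ := exists_index hn a b a b
  obtain ⟨d, hda, hdb, hdc, -⟩ := exists_index hn a b c c
  obtain ⟨x, y, hxy⟩ := hPI r hr
  have hfull : ∀ t, elem c d t ∈ N := by
    intro t
    have h1 : elem c b (t * x * r) ∈ N := by
      rw [← hrels.mul c a b hca hab hcb]
      exact comm_mem_left hN (elem_mem hca _) h
    have h2 := comm_mem_right hN (elem_mem hdb.symm y) h1
    rwa [hrels.mul c b d hcb hdb.symm hdc.symm,
      show t * x * r * y = t by rw [mul_assoc t, mul_assoc t, hxy, mul_one]] at h2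
  have hright : ∀ {p q q' : Fin n}, p ≠ q → q ≠ q' → p ≠ q' → (∀ t, elem p q t ∈ N) →
      ∀ t, elem p q' t ∈ N := by
    intro p q q' h1 h2 h3 hh t
    rw [← mul_one t, ← hrels.mul p q q' h1 h2 h3]
    exact comm_mem_right hN (elem_mem h2 1) (hh t)
  have hleft : ∀ {p p' q : Fin n}, p' ≠ p → p ≠ q → p' ≠ q → (∀ t, elem p q t ∈ N) →
      ∀ t, elem p' q t ∈ N := by
    intro p p' q h1 h2 h3 hh t
    rw [← one_mul t, ← hrels.mul p' p q h1 h2 h3]
    exact comm_mem_left hN (elem_mem h1 1) (hh t)
  rw [elemGroup, Subgroup.closure_le]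
  rintro _ ⟨p, q, t, hpq, rfl⟩
  obtain ⟨k, hkc, hkd, hkp, hkq⟩ := exists_index hn c d p q
  have hck : ∀ t, elem c k t ∈ N := hright hdc.symm hkd.symm hkc.symm hfull
  have hpk : ∀ t, elem p k t ∈ N := by
    by_cases hpc : p = c
    · subst hpc; exact hck
    · exact hleft hpc hkc.symm hkp.symm hck
  exact hright hkp.symm hkq hpq hpk t

include hN in
/-- A matrix differing from `1` in a single column yields an elementary matrix. -/
theorem exists_elem_of_column (hn : 5 ≤ n) {d : GLn n R} (hd : d ∈ N) {j : Fin n}
    (hcol : ∀ p q, q ≠ j → (d : Matrix (Fin n) (Fin n) R) p q = (1 : Matrix (Fin n) (Fin n) R) p q)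
    (hne : d ≠ 1) : ∃ a b : Fin n, a ≠ b ∧ ∃ r : R, r ≠ 0 ∧ elem a b r ∈ N := by
  classical
  set D := (d : Matrix (Fin n) (Fin n) R) with hD
  set D' := ((d⁻¹ : GLn n R) : Matrix (Fin n) (Fin n) R) with hD'
  have hDD : D' * D = 1 := by rw [hD, hD', ← Units.val_mul, inv_mul_cancel, Units.val_one]
  have hrow : ∀ q, q ≠ j → D' j q = 0 := by
    intro q hq
    have h1 := congrArg (fun M : Matrix (Fin n) (Fin n) R => M j q) hDD
    simp only [Matrix.mul_apply, hcol _ q hq, Matrix.one_apply, mul_ite, mul_one, mul_zero,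
      Finset.sum_ite_eq', Finset.mem_univ, if_true] at h1
    rw [h1, if_neg hq.symm]
  have hjj : D' j j * D j j = 1 := by
    have h1 := congrArg (fun M : Matrix (Fin n) (Fin n) R => M j j) hDD
    simp only [Matrix.mul_apply, Matrix.one_apply_eq] at h1
    rwa [Finset.sum_eq_single j (fun q _ hq => by rw [hrow q hq, zero_mul]) (by simp)] at h1
  have hDS : ∀ (b : Fin n) (s : R), b ≠ j → D * Matrix.single b j s = Matrix.single b j s := by
    intro b s hb
    ext p q
    rw [Matrix.mul_apply, Finset.sum_eq_single b (fun c _ hc => by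
      rw [Matrix.single_apply, if_neg (by rintro ⟨rfl, -⟩; exact hc rfl), mul_zero]) (by simp),
      hcol p b hb, Matrix.single_apply, Matrix.single_apply, Matrix.one_apply]
    by_cases h1 : p = b <;> by_cases h2 : j = q <;> simp [h1, Ne.symm, h2, eq_comm]
  have hSD : ∀ (b : Fin n) (s : R), Matrix.single b j s * D' = Matrix.single b j (s * D' j j) := by
    intro b s
    ext p q
    rw [Matrix.mul_apply, Finset.sum_eq_single j (fun c _ hc => by
      rw [Matrix.single_apply, if_neg (by rintro ⟨-, rfl⟩; exact hc rfl), zero_mul]) (by simp),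
      Matrix.single_apply, Matrix.single_apply]
    by_cases h1 : b = p <;> by_cases h2 : j = q
    · simp [h1, h2]
    · simp [h1, h2, hrow q (Ne.symm h2)]
    · simp [h1]
    · simp [h1]
  by_cases hone : D j j = 1
  · obtain ⟨p, hp⟩ : ∃ p, D p j ≠ (1 : Matrix (Fin n) (Fin n) R) p j := by
      by_contra hc
      push Not at hc
      refine hne (Units.ext ?_)
      ext p q
      by_cases hq : q = j
      · subst hq; exact hc p
      · exact hcol p q hq
    have hpj : p ≠ j := by rintro rfl; exact hp (by rw [hone, Matrix.one_apply_eq])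
    rw [Matrix.one_apply_ne hpj] at hp
    rw [hone, mul_one] at hjj
    obtain ⟨b, hbp, hbj, -, -⟩ := exists_index hn p j p j
    refine ⟨b, j, hbj, D p j, hp, ?_⟩
    have h1 := comm_mem_left hN (elem_mem hbp (1 : R)) hd
    have hS1 : Matrix.single b p (1 : R) * D = Matrix.single b p 1 + Matrix.single b j (D p j) := by
      ext c q
      rw [Matrix.mul_apply, Finset.sum_eq_single p (fun e _ he => by
        rw [Matrix.single_apply, if_neg (by rintro ⟨-, rfl⟩; exact he rfl), zero_mul]) (by simp),
        Matrix.add_apply, Matrix.single_apply, Matrix.single_apply, Matrix.single_apply]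
      by_cases hc : b = c
      · subst hc
        by_cases hq : q = j
        · subst hq; simp [hpj]
        · simp [hcol p q hq, Matrix.one_apply, Ne.symm hq]
      · simp [hc]
    have hS2 : D * Matrix.single b p (1 : R) = Matrix.single b p 1 := by
      ext c q
      rw [Matrix.mul_apply, Finset.sum_eq_single b (fun e _ he => by
        rw [Matrix.single_apply, if_neg (by rintro ⟨rfl, -⟩; exact he rfl), mul_zero]) (by simp),
        hcol c b hbj, Matrix.single_apply, Matrix.single_apply, Matrix.one_apply]
      by_cases h1 : c = b <;> by_cases h2 : p = q <;> simp [h1, Ne.symm, h2, eq_comm]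
    have h3 : elem b p (1 : R) * d = elem b j (D p j) * (d * elem b p 1) := by
      refine Units.ext ?_
      rw [Units.val_mul, Units.val_mul, Units.val_mul, val_elem hbp, val_elem hbj, ← hD,
        Matrix.add_mul, Matrix.one_mul, hS1, Matrix.add_mul, Matrix.one_mul, Matrix.mul_add,
        Matrix.mul_one, hS2, Matrix.mul_add]
      have hS3 : Matrix.single b j (D p j) * D = Matrix.single b j (D p j) := by
        ext c q
        rw [Matrix.mul_apply, Finset.sum_eq_single j (fun e _ he => by
          rw [Matrix.single_apply, if_neg (by rintro ⟨-, rfl⟩; exact he rfl), zero_mul]) (by simp),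
          Matrix.single_apply, Matrix.single_apply]
        by_cases hc : b = c
        · subst hc
          by_cases hq : q = j
          · subst hq; simp [hone]
          · simp [hcol j q hq, Matrix.one_apply, Ne.symm hq]
        · simp [hc]
      rw [hS3, Matrix.single_mul_single_of_ne (D p j) b j b hbj.symm, add_zero]
      abel
    have h4 : ⁅elem b p (1 : R), d⁆ = elem b j (D p j) := by
      rw [commutatorElement_def, h3]; group
    rwa [h4] at h1
  · obtain ⟨b, hbj, -, -, -⟩ := exists_index hn j j j j
    refine ⟨b, j, hbj, D' j j - 1, fun h0 => hone ?_, ?_⟩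
    · rwa [sub_eq_zero.1 h0, one_mul] at hjj
    · have h1 := comm_mem_right hN (elem_mem hbj (1 : R)) hd
      have h2 : d * elem b j (1 : R) * d⁻¹ = elem b j (D' j j) := by
        refine Units.ext ?_
        rw [Units.val_mul, Units.val_mul, val_elem hbj, val_elem hbj, ← hD, ← hD', Matrix.mul_add,
          Matrix.mul_one, hDS b 1 hbj, Matrix.add_mul, hSD b 1, one_mul]
        rw [show D * D' = 1 by rw [hD, hD', ← Units.val_mul, mul_inv_cancel, Units.val_one]]
      rwa [commutatorElement_def, h2, ← elem_rels.neg hbj, ← elem_add hbj, ← sub_eq_add_neg] at h1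

end Vale.Agent.P193.Steinberg
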