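import Vale.Agent.P193.Steinberg.Words

/-!
# The Steinberg group of a finitely presented ring is finitely presented
-/

namespace Vale.Agent.P193.Steinberg

open scoped commutatorElement

variable {n : ℕ} {X : Type*}

set_option linter.deprecated false in
/-- The additive map to the root subgroup of a pair of distinct indices. -/
noncomputable def Zaux (hn : 5 ≤ n) (i j : Fin n) (h : i ≠ j) :
    FreeAbelianGroup (FreeMonoid X) → G0 n X :=
  let inst : AddCommGroup (Additive (Subgroup.closure (Set.range fun w : List X => Y w i j))) :=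
    @Additive.addCommGroup _ (Subgroup.closureCommGroupOfComm (by
      rintro _ ⟨w, rfl⟩ _ ⟨v, rfl⟩
      exact Y_comm hn w v h h h.symm h))
  fun a => (Additive.toMul
    ((@FreeAbelianGroup.lift (FreeMonoid X)
      (Additive (Subgroup.closure (Set.range fun w : List X => Y w i j))) inst fun m =>
        Additive.ofMul ⟨Y (FreeMonoid.toList m).reverse i j,
          Subgroup.subset_closure ⟨_, rfl⟩⟩) a)).1

open Classical in
/-- The element attached to a noncommutative polynomial. -/
noncomputable def Z (hn : 5 ≤ n) (i j : Fin n) (a : FreeAbelianGroup (FreeMonoid X)) : G0 n X :=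
  if h : i ≠ j then Zaux hn i j h a else 1

theorem Z_of (hn : 5 ≤ n) {i j : Fin n} (h : i ≠ j) (m : FreeMonoid X) :
    Z hn i j (FreeAbelianGroup.of m) = Y (FreeMonoid.toList m).reverse i j := by
  simp only [Z, dif_pos h, Zaux, FreeAbelianGroup.lift_apply_of]
  rfl

theorem Z_add (hn : 5 ≤ n) {i j : Fin n} (h : i ≠ j) (a b : FreeAbelianGroup (FreeMonoid X)) :
    Z hn i j (a + b) = Z hn i j a * Z hn i j b := by
  simp only [Z, dif_pos h, Zaux, map_add]
  rfl

theorem Z_zero (hn : 5 ≤ n) {i j : Fin n} (h : i ≠ j) :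
    Z (X := X) hn i j 0 = 1 := by
  have e := Z_add (X := X) hn h 0 0
  rw [add_zero] at e
  exact left_eq_mul.1 e

theorem Z_neg (hn : 5 ≤ n) {i j : Fin n} (h : i ≠ j) (a : FreeAbelianGroup (FreeMonoid X)) :
    Z hn i j (-a) = (Z hn i j a)⁻¹ := by
  have e := Z_add hn h a (-a)
  rw [add_neg_cancel, Z_zero hn h] at e
  exact eq_inv_of_mul_eq_one_right e.symm

theorem Z_rels (hn : 5 ≤ n) : Rels (Z (n := n) (X := X) hn) := by
  have hcomm : ∀ a b : FreeAbelianGroup (FreeMonoid X), ∀ i j k l : Fin n,
      i ≠ j → k ≠ l → j ≠ k → i ≠ l → Commute (Z hn i j a) (Z hn k l b) := by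
    intro a b i j k l hij hkl hjk hil
    induction a using FreeAbelianGroup.induction_on with
    | zero => rw [Z_zero hn hij]; exact Commute.one_left _
    | neg x hx => rw [Z_neg hn hij]; exact hx.inv_left
    | add x y hx hy => rw [Z_add hn hij]; exact hx.mul_left hy
    | of x =>
      induction b using FreeAbelianGroup.induction_on with
      | zero => rw [Z_zero hn hkl]; exact Commute.one_right _
      | neg z hz => rw [Z_neg hn hkl]; exact hz.inv_right
      | add z z' hz hz' => rw [Z_add hn hkl]; exact hz.mul_right hz'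
      | of z => rw [Z_of hn hij, Z_of hn hkl]; exact Y_comm hn _ _ hij hkl hjk hil
  refine ⟨fun i j h r s => Z_add hn h r s, fun i j k hij hjk hik r s => ?_,
    fun i j k l hij hkl hjk hil r s => hcomm r s i j k l hij hkl hjk hil⟩
  induction r using FreeAbelianGroup.induction_on with
  | zero => rw [zero_mul, Z_zero hn hij, Z_zero hn hik, commutatorElement_one_left]
  | neg x hx =>
    have e : Z hn i j (-FreeAbelianGroup.of x) = Z hn i j (FreeAbelianGroup.of x) ^ (-1 : ℤ) := by
      rw [Z_neg hn hij, zpow_neg_one]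
    rw [e, commutator_zpow_left (by rw [hx]; exact hcomm _ _ i j i k hij hik hij.symm hik) (-1),
      hx, zpow_neg_one, neg_mul, Z_neg hn hik]
  | add x y hx hy =>
    rw [Z_add hn hij, commutator_mul_left
      (by rw [hy]; exact hcomm _ _ i j i k hij hik hij.symm hik), hx, hy, add_mul,
      add_comm (x * s), Z_add hn hik]
  | of x =>
    induction s using FreeAbelianGroup.induction_on with
    | zero => rw [mul_zero, Z_zero hn hjk, Z_zero hn hik, commutatorElement_one_right]
    | neg z hz =>
      rw [Z_neg hn hjk, mul_neg, Z_neg hn hik, ← hz]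
      have hc : Commute (Z hn j k (FreeAbelianGroup.of z))
          ⁅Z hn i j (FreeAbelianGroup.of x), Z hn j k (FreeAbelianGroup.of z)⁆ := by
        rw [hz]; exact hcomm _ _ j k i k hjk hik hik.symm hjk
      have h1 := commutator_zpow_left (a := Z hn j k (FreeAbelianGroup.of z))
        (c := Z hn i j (FreeAbelianGroup.of x)) (by
          rw [← commutatorElement_inv]; exact hc.inv_right) (-1)
      rw [zpow_neg_one, zpow_neg_one] at h1
      rw [← commutatorElement_inv, h1, commutatorElement_inv]
    | add z z' hz hz' =>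
      rw [Z_add hn hjk, commutator_mul_right
        (by rw [hz']; exact hcomm _ _ j k i k hjk hik hik.symm hjk), hz, hz', mul_add,
        Z_add hn hik]
    | of z =>
      rw [Z_of hn hij, Z_of hn hjk, Y_mul hn _ _ hij hjk hik, FreeAbelianGroup.of_mul_of,
        Z_of hn hik, FreeMonoid.toList_mul, List.reverse_append]

/-- The free algebra as a ring of polynomials in words. -/
noncomputable def toPoly : FreeAlgebra ℤ X →+* FreeAbelianGroup (FreeMonoid X) :=
  (FreeAlgebra.lift ℤ fun a => FreeAbelianGroup.of (FreeMonoid.of a)).toRingHom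

theorem toPoly_ι (a : X) :
    toPoly (FreeAlgebra.ι ℤ a) = FreeAbelianGroup.of (FreeMonoid.of a) := by
  simp [toPoly]

theorem gen_mem_range (hn : 5 ≤ n) {i j : Fin n} (h : i ≠ j) (o : Option X) :
    ∃ b : FreeAlgebra ℤ X, gen i j o = Z hn i j (toPoly b) := by
  cases o with
  | none => exact ⟨1, by rw [map_one, FreeAbelianGroup.one_def, Z_of hn h]; rfl⟩
  | some a =>
    refine ⟨FreeAlgebra.ι ℤ a, ?_⟩
    rw [toPoly_ι, Z_of hn h]
    exact (Y_single hn h a).symm

variable {R : Type*} [Ring R]

/-- Interpretation of a generator. -/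
noncomputable def genVal (π : FreeAlgebra ℤ X →+* R) : Option X → R
  | none => 1
  | some a => π (FreeAlgebra.ι ℤ a)

/-- The map from the model group. -/
noncomputable def fromModel (π : FreeAlgebra ℤ X →+* R) : G0 n X →* St n R :=
  PresentedGroup.toGroup (f := fun a => xst a.1.1.1 a.1.1.2 (genVal π a.2)) (by
    rintro w (⟨p, q, a, b, h1, h2, rfl⟩ |
      ⟨⟨⟨i, j⟩, hp⟩, ⟨⟨j', k⟩, hq⟩, ⟨⟨i', k'⟩, ht⟩, a, e1, e2, e3, rfl⟩ |
      ⟨⟨⟨i, j⟩, hp⟩, ⟨⟨j', k⟩, hq⟩, ⟨⟨i', k'⟩, ht⟩, a, e1, e2, e3, rfl⟩)
    · simp only [map_commutatorElement, FreeGroup.lift_apply_of]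
      exact commutatorElement_eq_one_iff_commute.2 (xst_rels.comm _ _ _ _ p.2 q.2 h1 h2 _ _)
    · obtain rfl : j = j' := e1
      obtain rfl : i' = i := e2
      obtain rfl : k' = k := e3
      simp only [map_mul, map_inv, map_commutatorElement, FreeGroup.lift_apply_of]
      rw [xst_rels.mul i' j k' hp hq ht, genVal, mul_one, mul_inv_cancel]
    · obtain rfl : j = j' := e1
      obtain rfl : i' = i := e2
      obtain rfl : k' = k := e3
      simp only [map_mul, map_inv, map_commutatorElement, FreeGroup.lift_apply_of]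
      rw [xst_rels.mul i' j k' hp hq ht, genVal, one_mul, mul_inv_cancel])

theorem fromModel_gen (π : FreeAlgebra ℤ X →+* R) {i j : Fin n} (h : i ≠ j) (o : Option X) :
    fromModel π (gen i j o) = xst i j (genVal π o) := by
  rw [gen, dif_pos h, fromModel, PresentedGroup.toGroup.of]

theorem fromModel_Z (hn : 5 ≤ n) (π : FreeAlgebra ℤ X →+* R) (b : FreeAlgebra ℤ X) :
    ∀ i j : Fin n, i ≠ j → fromModel π (Z hn i j (toPoly b)) = xst i j (π b) := by
  induction b using FreeAlgebra.induction with
  | grade0 z =>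
    intro i j h
    have h1 : fromModel π (Z hn i j (toPoly (1 : FreeAlgebra ℤ X))) = xst i j (π 1) := by
      rw [map_one, map_one, FreeAbelianGroup.one_def, Z_of hn h]
      exact fromModel_gen π h none
    induction z using Int.induction_on with
    | zero => rw [map_zero, map_zero, map_zero, Z_zero hn h, xst_rels.zero h, map_one]
    | succ m ih =>
      rw [map_add, map_one, map_add, map_add, Z_add hn h, map_mul, ih, h1,
        xst_rels.add i j h]
    | pred m ih =>
      rw [map_sub, map_one, map_sub, map_sub, sub_eq_add_neg, sub_eq_add_neg, Z_add hn h, map_mul,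
        Z_neg hn h, map_inv, ih, h1, xst_rels.add i j h, xst_rels.neg h]
  | grade1 a =>
    intro i j h
    rw [toPoly_ι, Z_of hn h]
    exact (congrArg (fromModel π) (Y_single hn h a)).trans (fromModel_gen π h (some a))
  | mul a b ha hb =>
    intro i j h
    obtain ⟨k, hki, hkj, -, -⟩ := exists_index hn i j i j
    rw [map_mul, ← (Z_rels hn).mul i k j hki.symm hkj h, map_commutatorElement, ha i k hki.symm,
      hb k j hkj, xst_rels.mul i k j hki.symm hkj h, map_mul]
  | add a b ha hb =>
    intro i j h
    rw [map_add, Z_add hn h, map_mul, ha i j h, hb i j h, map_add, xst_rels.add i j h]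

/-- The relators cutting out the Steinberg group of a quotient ring. -/
def ringRels (hn : 5 ≤ n) (F : Set (FreeAlgebra ℤ X)) : Set (G0 n X) :=
  (fun a : Idx n × FreeAlgebra ℤ X => Z hn a.1.1.1 a.1.1.2 (toPoly a.2)) '' (Set.univ ×ˢ F)

/-- The Steinberg group of a finitely presented ring is finitely presented. -/
theorem St.isFinitelyPresented [Finite X] (hn : 5 ≤ n) (π : FreeAlgebra ℤ X →+* R)
    (hπ : Function.Surjective π) {F : Set (FreeAlgebra ℤ X)} (hF : F.Finite)
    (hker : ∀ a, π a = 0 → a ∈ TwoSidedIdeal.span F) (hF0 : ∀ f ∈ F, π f = 0) :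
    Group.IsFinitelyPresented (St n R) := by
  have : Finite (rels0 n X) := rels0_finite.to_subtype
  let N : Subgroup (G0 n X) := Subgroup.normalClosure (ringRels hn F)
  have hN : N.IsFinitelyNormallyGenerated :=
    ⟨ringRels hn F, ((Set.finite_univ.prod hF).image _).to_subtype, rfl⟩
  have : Group.IsFinitelyPresented (G0 n X ⧸ N) :=
    Group.IsFinitelyPresented.quotient N hN
  have hkill : ∀ a, π a = 0 → ∀ i j, i ≠ j → Z hn i j (toPoly a) ∈ N := by
    let K : TwoSidedIdeal (FreeAlgebra ℤ X) :=
      TwoSidedIdeal.mk' {a | ∀ i j, i ≠ j → Z hn i j (toPoly a) ∈ N}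
        (fun i j h => by rw [map_zero, Z_zero hn h]; exact one_mem _)
        (fun {a b} ha hb i j h => by
          rw [map_add, Z_add hn h]; exact mul_mem (ha i j h) (hb i j h))
        (fun {a} ha i j h => by rw [map_neg, Z_neg hn h]; exact inv_mem (ha i j h))
        (fun {r a} ha i j h => by
          obtain ⟨k, hki, hkj, -, -⟩ := exists_index hn i j i j
          rw [map_mul, ← (Z_rels hn).mul i k j hki.symm hkj h, commutatorElement_def]
          exact mul_mem (Subgroup.Normal.conj_mem inferInstance _ (ha k j hkj) _)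
            (inv_mem (ha k j hkj)))
        (fun {a r} ha i j h => by
          obtain ⟨k, hki, hkj, -, -⟩ := exists_index hn i j i j
          rw [map_mul, ← (Z_rels hn).mul i k j hki.symm hkj h, commutatorElement_def,
            mul_assoc, mul_assoc]
          refine mul_mem (ha i k hki.symm) ?_
          rw [← mul_assoc]
          exact Subgroup.Normal.conj_mem inferInstance _ (inv_mem (ha i k hki.symm)) _)
    have hle : TwoSidedIdeal.span F ≤ K := TwoSidedIdeal.span_le.2 fun f hf => by
      rw [TwoSidedIdeal.coe_mk']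
      intro i j h
      exact Subgroup.subset_normalClosure ⟨(⟨(i, j), h⟩, f), ⟨Set.mem_univ _, hf⟩, rfl⟩
    intro a ha i j h
    have h2 := hle (hker a ha)
    rw [TwoSidedIdeal.mem_mk'] at h2
    exact h2 i j h
  let q : G0 n X →* G0 n X ⧸ N := QuotientGroup.mk' N
  let x : Fin n → Fin n → R → G0 n X ⧸ N := fun i j r =>
    q (Z hn i j (toPoly (Function.surjInv hπ r)))
  have hx : ∀ i j, i ≠ j → ∀ a, x i j (π a) = q (Z hn i j (toPoly a)) := by
    intro i j h a
    set b := Function.surjInv hπ (π a) with hb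
    have h1 : π (b - a) = 0 := by rw [map_sub, hb, Function.surjInv_eq hπ, sub_self]
    have h2 : b = (b - a) + a := (sub_add_cancel b a).symm
    show q (Z hn i j (toPoly b)) = _
    rw [h2, map_add, Z_add hn h, map_mul]
    have h3 : q (Z hn i j (toPoly (b - a))) = 1 :=
      (QuotientGroup.eq_one_iff _).2 (hkill _ h1 i j h)
    rw [h3, one_mul]
  have hxr : Rels x := by
    refine ⟨fun i j h r s => ?_, fun i j k hij hjk hik r s => ?_,
      fun i j k l hij hkl hjk hil r s => ?_⟩ <;>
      obtain ⟨a, rfl⟩ := hπ r <;> obtain ⟨b, rfl⟩ := hπ s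
    · rw [← map_add, hx i j h, hx i j h, hx i j h, map_add, Z_add hn h, map_mul]
    · rw [← map_mul, hx i j hij, hx j k hjk, hx i k hik, map_mul,
        ← (Z_rels hn).mul i j k hij hjk hik, map_commutatorElement]
    · rw [hx i j hij, hx k l hkl]
      exact ((Z_rels hn).comm i j k l hij hkl hjk hil _ _).map q
  have hker' : N ≤ (fromModel (n := n) π).ker := by
    refine Subgroup.normalClosure_le_normal ?_
    rintro _ ⟨⟨p, f⟩, ⟨-, hf⟩, rfl⟩
    show fromModel π (Z hn p.1.1 p.1.2 (toPoly f)) = 1
    rw [fromModel_Z hn π f _ _ p.2, hF0 f hf, xst_rels.zero p.2]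
  let φ : St n R →* G0 n X ⧸ N := lift hxr
  let ψ : G0 n X ⧸ N →* St n R := QuotientGroup.lift N (fromModel π) hker'
  have h1 : ψ.comp φ = MonoidHom.id _ := by
    refine hom_ext fun i j r h => ?_
    obtain ⟨a, rfl⟩ := hπ r
    show ψ (lift hxr (xst i j (π a))) = _
    rw [lift_xst hxr h, hx i j h]
    exact fromModel_Z hn π a i j h
  have h2 : φ.comp ψ = MonoidHom.id _ := by
    refine QuotientGroup.monoidHom_ext _ (PresentedGroup.ext fun a => ?_)
    obtain ⟨p, o⟩ := a
    show φ (fromModel π (PresentedGroup.of (p, o))) = q (PresentedGroup.of (p, o))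
    rw [← gen_eq, fromModel_gen π p.2]
    obtain ⟨b, hb⟩ := gen_mem_range hn p.2 o
    have h3 := congrArg (fromModel π) hb
    rw [fromModel_gen π p.2, fromModel_Z hn π b _ _ p.2] at h3
    rw [h3, lift_xst hxr p.2, hx _ _ p.2, hb]
  exact Group.IsFinitelyPresented.equiv (MonoidHom.toMulEquiv ψ φ h2 h1)

end Vale.Agent.P193.Steinberg
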