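import Vale.Agent.P193.Steinberg.Basic

/-!
# A finite presentation of the Steinberg group of a free ring: words
-/

namespace Vale.Agent.P193.Steinberg

open scoped commutatorElement

variable {n : ℕ} {X : Type*}

/-- The finitely many relations on the generators indexed by `Idx n × Option X`. -/
def rels0 (n : ℕ) (X : Type*) : Set (FreeGroup (Idx n × Option X)) :=
  {w | (∃ (p q : Idx n) (a b : Option X), p.1.2 ≠ q.1.1 ∧ p.1.1 ≠ q.1.2 ∧
      w = ⁅FreeGroup.of (p, a), FreeGroup.of (q, b)⁆) ∨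
    (∃ (p q t : Idx n) (a : Option X), p.1.2 = q.1.1 ∧ t.1.1 = p.1.1 ∧ t.1.2 = q.1.2 ∧
      w = ⁅FreeGroup.of (p, a), FreeGroup.of (q, (none : Option X))⁆ * (FreeGroup.of (t, a))⁻¹) ∨
    (∃ (p q t : Idx n) (a : Option X), p.1.2 = q.1.1 ∧ t.1.1 = p.1.1 ∧ t.1.2 = q.1.2 ∧
      w = ⁅FreeGroup.of (p, (none : Option X)), FreeGroup.of (q, a)⁆ * (FreeGroup.of (t, a))⁻¹)}

theorem rels0_finite [Finite X] : (rels0 n X).Finite := by
  let S : Set (FreeGroup (Idx n × Option X)) :=
    Set.range (fun a : (Idx n × Option X) × (Idx n × Option X) =>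
        ⁅FreeGroup.of a.1, FreeGroup.of a.2⁆) ∪
      Set.range (fun a : (Idx n × Option X) × (Idx n × Option X) × (Idx n × Option X) =>
        ⁅FreeGroup.of a.1, FreeGroup.of a.2.1⁆ * (FreeGroup.of a.2.2)⁻¹)
  refine (show S.Finite from (Set.finite_range _).union (Set.finite_range _)).subset ?_
  rintro w (⟨p, q, a, b, -, -, rfl⟩ | ⟨p, q, t, a, -, -, -, rfl⟩ | ⟨p, q, t, a, -, -, -, rfl⟩)
  · exact Or.inl ⟨((p, a), (q, b)), rfl⟩
  · exact Or.inr ⟨((p, a), (q, none), (t, a)), rfl⟩
  · exact Or.inr ⟨((p, none), (q, a), (t, a)), rfl⟩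

/-- The finitely presented group modelling the Steinberg group of a free ring. -/
abbrev G0 (n : ℕ) (X : Type*) : Type _ := PresentedGroup (rels0 n X)

/-- Its generators. -/
noncomputable def gen (i j : Fin n) (a : Option X) : G0 n X :=
  if h : i ≠ j then PresentedGroup.of ((⟨(i, j), h⟩ : Idx n), a) else 1

theorem gen_eq (p : Idx n) (a : Option X) :
    gen p.1.1 p.1.2 a = PresentedGroup.of (rels := rels0 n X) (p, a) := by
  simp [gen, p.2]

theorem gen_comm {i j k l : Fin n} (hij : i ≠ j) (hkl : k ≠ l) (hjk : j ≠ k) (hil : i ≠ l)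
    (a b : Option X) : Commute (gen i j a) (gen k l b) := by
  have hm : ⁅FreeGroup.of ((⟨(i, j), hij⟩ : Idx n), a), FreeGroup.of ((⟨(k, l), hkl⟩ : Idx n), b)⁆ ∈
      rels0 n X := Or.inl ⟨⟨(i, j), hij⟩, ⟨(k, l), hkl⟩, a, b, hjk, hil, rfl⟩
  have h := PresentedGroup.one_of_mem hm
  rw [map_commutatorElement] at h
  rw [gen, gen, dif_pos hij, dif_pos hkl, ← commutatorElement_eq_one_iff_commute]
  exact h

theorem gen_one_right {i j k : Fin n} (hij : i ≠ j) (hjk : j ≠ k) (hik : i ≠ k) (a : Option X) :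
    ⁅gen i j a, gen j k none⁆ = gen i k a := by
  have hm : ⁅FreeGroup.of ((⟨(i, j), hij⟩ : Idx n), a),
      FreeGroup.of ((⟨(j, k), hjk⟩ : Idx n), (none : Option X))⁆ *
      (FreeGroup.of ((⟨(i, k), hik⟩ : Idx n), a))⁻¹ ∈ rels0 n X :=
    Or.inr (Or.inl ⟨⟨(i, j), hij⟩, ⟨(j, k), hjk⟩, ⟨(i, k), hik⟩, a, rfl, rfl, rfl, rfl⟩)
  have h := PresentedGroup.mk_eq_mk_of_mul_inv_mem hm
  rw [map_commutatorElement] at h
  rw [gen, gen, gen, dif_pos hij, dif_pos hjk, dif_pos hik]
  exact h

theorem gen_one_left {i j k : Fin n} (hij : i ≠ j) (hjk : j ≠ k) (hik : i ≠ k) (a : Option X) :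
    ⁅gen i j (none : Option X), gen j k a⁆ = gen i k a := by
  have hm : ⁅FreeGroup.of ((⟨(i, j), hij⟩ : Idx n), (none : Option X)),
      FreeGroup.of ((⟨(j, k), hjk⟩ : Idx n), a)⁆ *
      (FreeGroup.of ((⟨(i, k), hik⟩ : Idx n), a))⁻¹ ∈ rels0 n X :=
    Or.inr (Or.inr ⟨⟨(i, j), hij⟩, ⟨(j, k), hjk⟩, ⟨(i, k), hik⟩, a, rfl, rfl, rfl, rfl⟩)
  have h := PresentedGroup.mk_eq_mk_of_mul_inv_mem hm
  rw [map_commutatorElement] at h
  rw [gen, gen, gen, dif_pos hij, dif_pos hjk, dif_pos hik]
  exact h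

open Classical in
/-- An index different from two given ones. -/
noncomputable def third (i j : Fin n) : Fin n :=
  if h : ∃ k, k ≠ i ∧ k ≠ j then h.choose else i

theorem third_spec (hn : 5 ≤ n) (i j : Fin n) : third i j ≠ i ∧ third i j ≠ j := by
  have h : ∃ k, k ≠ i ∧ k ≠ j :=
    (exists_index hn i j i j).imp fun _ hk => ⟨hk.1, hk.2.1⟩
  rw [third, dif_pos h]
  exact h.choose_spec

/-- The element attached to a monomial, given as a reversed list of letters. -/
noncomputable def Y : List X → Fin n → Fin n → G0 n X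
  | [], i, j => gen i j none
  | a :: w, i, j => ⁅Y w i (third i j), gen (third i j) j (some a)⁆

theorem Y_single (hn : 5 ≤ n) {i j : Fin n} (hij : i ≠ j) (a : X) :
    Y [a] i j = gen i j (some a) :=
  gen_one_left (third_spec hn i j).1.symm (third_spec hn i j).2 hij _

/-- The relations known for monomials of length at most `d`. -/
structure Known (n : ℕ) (X : Type*) (d : ℕ) : Prop where
  comm : ∀ (w v : List X), w.length ≤ d → v.length ≤ d → ∀ i j k l : Fin n,
    i ≠ j → k ≠ l → j ≠ k → i ≠ l → Commute (Y w i j) (Y v k l)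
  unit : ∀ (w : List X), w.length ≤ d → ∀ i j k : Fin n,
    i ≠ j → j ≠ k → i ≠ k → ⁅Y w i j, gen j k none⁆ = Y w i k
  step : ∀ (a : X) (w : List X), w.length < d → ∀ i j k : Fin n,
    i ≠ j → k ≠ i → k ≠ j → Y (a :: w) i j = ⁅Y w i k, gen k j (some a)⁆

theorem short_cases {w : List X} (h : w.length ≤ 1) : w = [] ∨ ∃ a, w = [a] := by
  rcases w with - | ⟨a, - | ⟨b, w⟩⟩
  · exact Or.inl rfl
  · exact Or.inr ⟨a, rfl⟩
  · simp at h

theorem known_one (hn : 5 ≤ n) : Known n X 1 := by
  have hval : ∀ w : List X, w.length ≤ 1 → ∃ o : Option X, ∀ i j : Fin n, i ≠ j →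
      Y w i j = gen i j o := by
    intro w hw
    rcases short_cases hw with rfl | ⟨a, rfl⟩
    · exact ⟨none, fun i j _ => rfl⟩
    · exact ⟨some a, fun i j h => Y_single hn h a⟩
  refine ⟨fun w v hw hv i j k l hij hkl hjk hil => ?_, fun w hw i j k hij hjk hik => ?_,
    fun a w hw i j k hij hki hkj => ?_⟩
  · obtain ⟨o, ho⟩ := hval w hw
    obtain ⟨o', ho'⟩ := hval v hv
    rw [ho i j hij, ho' k l hkl]
    exact gen_comm hij hkl hjk hil o o'
  · obtain ⟨o, ho⟩ := hval w hw
    rw [ho i j hij, ho i k hik]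
    exact gen_one_right hij hjk hik o
  · obtain rfl : w = [] := List.length_eq_zero_iff.1 (by omega)
    rw [Y_single hn hij]
    exact (gen_one_left hki.symm hkj hij _).symm

theorem Known.succ (hn : 5 ≤ n) {d : ℕ} (hd : 1 ≤ d) (h : Known n X d) : Known n X (d + 1) := by
  have hg : ∀ (w : List X), w.length ≤ d → ∀ (o : Option X) (i j k l : Fin n),
      i ≠ j → k ≠ l → j ≠ k → i ≠ l → Commute (Y w i j) (gen k l o) := by
    intro w hw o i j k l hij hkl hjk hil
    cases o with
    | none => exact h.comm w [] hw (Nat.zero_le d) i j k l hij hkl hjk hil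
    | some a => exact Y_single hn hkl a ▸ h.comm w [a] hw hd i j k l hij hkl hjk hil
  have hgg : ∀ (o o' : Option X) (i j k l : Fin n),
      i ≠ j → k ≠ l → j ≠ k → i ≠ l → Commute (gen i j o) (gen k l o') :=
    fun o o' i j k l hij hkl hjk hil => gen_comm hij hkl hjk hil o o'
  have indep : ∀ (a : X) (w : List X), w.length ≤ d → ∀ i j k l : Fin n,
      i ≠ j → k ≠ i → k ≠ j → l ≠ i → l ≠ j →
      ⁅Y w i k, gen k j (some a)⁆ = ⁅Y w i l, gen l j (some a)⁆ := by
    intro a w hw i j k l hij hki hkj hli hlj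
    by_cases hkl : k = l
    · rw [hkl]
    have e := comm_assoc (u := Y w i k) (v := gen k l none) (z := gen l j (some a))
    rw [h.unit w hw i k l hki.symm hkl hli.symm, gen_one_left hkl hlj hkj] at e
    exact (e (hg w hw _ i k l j hki.symm hlj hkl hij)
      (hg w hw _ i l k j hli.symm hkj (Ne.symm hkl) hij)
      (hgg _ _ k j k l hkj hkl hkj.symm hkl)
      (hgg _ _ k j l j hkj hlj hlj.symm hkj)).symm
  have step : ∀ (a : X) (w : List X), w.length < d + 1 → ∀ i j k : Fin n,
      i ≠ j → k ≠ i → k ≠ j → Y (a :: w) i j = ⁅Y w i k, gen k j (some a)⁆ :=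
    fun a w hw i j k hij hki hkj => indep a w (by omega) i j (third i j) k hij
      (third_spec hn i j).1 (third_spec hn i j).2 hki hkj
  have half : ∀ (w v : List X), w.length ≤ d + 1 → v.length ≤ d → ∀ i j k l : Fin n,
      i ≠ j → k ≠ l → j ≠ k → i ≠ l → Commute (Y w i j) (Y v k l) := by
    intro w v hw hv i j k l hij hkl hjk hil
    rcases w with - | ⟨a, w⟩
    · exact h.comm [] v (Nat.zero_le d) hv i j k l hij hkl hjk hil
    · obtain ⟨m, hmi, hmj, hmk, hml⟩ := exists_index hn i j k l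
      rw [step a w (by simp at hw; omega) i j m hij hmi hmj, commutatorElement_def]
      have hw' : w.length ≤ d := by simp at hw; omega
      have c1 := h.comm w v hw' hv i m k l hmi.symm hkl hmk hil
      have c2 : Commute (gen m j (some a)) (Y v k l) :=
        (hg v hv _ k l m j hkl hmj hml.symm hjk.symm).symm
      exact ((c1.mul_left c2).mul_left c1.inv_left).mul_left c2.inv_left
  refine ⟨fun w v hw hv i j k l hij hkl hjk hil => ?_, fun w hw i j k hij hjk hik => ?_, step⟩
  · rcases w with - | ⟨a, w⟩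
    · exact (half v [] hv (Nat.zero_le d) k l i j hkl hij hil.symm hjk.symm).symm
    · obtain ⟨m, hmi, hmj, hmk, hml⟩ := exists_index hn i j k l
      rw [step a w (by simp at hw; omega) i j m hij hmi hmj, commutatorElement_def]
      have c1 := (half v w hv (by simp at hw; omega) k l i m hkl hmi.symm hil.symm hmk.symm).symm
      have c2 : Commute (gen m j (some a)) (Y v k l) := by
        rw [← Y_single hn hmj]
        exact (half v [a] hv hd k l m j hkl hmj hml.symm hjk.symm).symm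
      exact ((c1.mul_left c2).mul_left c1.inv_left).mul_left c2.inv_left
  · rcases w with - | ⟨a, w⟩
    · exact h.unit [] (Nat.zero_le d) i j k hij hjk hik
    · have hw' : w.length ≤ d := by simp at hw; omega
      obtain ⟨l, hli, hlj, hlk, -⟩ := exists_index hn i j k k
      have hlt : w.length < d + 1 := by omega
      have e := comm_assoc (u := Y w i l) (v := gen l j (some a)) (z := gen j k none)
      rw [← step a w hlt i j l hij hli hlj, gen_one_right hlj hjk hlk] at e
      rw [step a w hlt i k l hik hli hlk]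
      exact e (hg w hw' _ i l j k hli.symm hjk hlj hik)
        ((Y_single hn hlk a) ▸ half (a :: w) [a] hw hd i j l k hij hlk hlj.symm hik)
        (hgg _ _ l k l j hlk hlj hlk.symm hlj)
        (hgg _ _ l k j k hlk hjk hjk.symm hlk)

theorem known (hn : 5 ≤ n) : ∀ d, Known n X (d + 1)
  | 0 => known_one hn
  | d + 1 => (known hn d).succ hn (Nat.succ_pos d)

theorem Y_comm (hn : 5 ≤ n) (w v : List X) {i j k l : Fin n} (hij : i ≠ j) (hkl : k ≠ l)
    (hjk : j ≠ k) (hil : i ≠ l) : Commute (Y w i j) (Y v k l) :=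
  (known hn (w.length + v.length)).comm w v (by omega) (by omega) i j k l hij hkl hjk hil

theorem Y_step (hn : 5 ≤ n) (a : X) (w : List X) {i j k : Fin n} (hij : i ≠ j) (hki : k ≠ i)
    (hkj : k ≠ j) : Y (a :: w) i j = ⁅Y w i k, gen k j (some a)⁆ :=
  (known hn w.length).step a w (Nat.lt_succ_self _) i j k hij hki hkj

theorem Y_mul (hn : 5 ≤ n) (w : List X) : ∀ (v : List X) {i j k : Fin n}, i ≠ j → j ≠ k → i ≠ k →
    ⁅Y w i j, Y v j k⁆ = Y (v ++ w) i k
  | [], i, j, k, hij, hjk, hik => (known hn w.length).unit w (Nat.le_succ _) i j k hij hjk hik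
  | a :: v, i, j, k, hij, hjk, hik => by
    obtain ⟨l, hli, hlj, hlk, -⟩ := exists_index hn i j k k
    have e := comm_assoc (u := Y w i j) (v := Y v j l) (z := gen l k (some a))
    rw [Y_mul hn w v hij hlj.symm hli.symm, ← Y_step hn a v hjk hlj hlk] at e
    rw [List.cons_append, Y_step hn a (v ++ w) hik hli hlk, ← Y_single hn hlk a]
    rw [← Y_single hn hlk a] at e
    exact (e (Y_comm hn _ _ hij hlk hlj.symm hik) (Y_comm hn _ _ hli.symm hjk hlj hik)
      (Y_comm hn _ _ hjk hlj.symm hjk.symm hlj.symm)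
      (Y_comm hn _ _ hjk hlk hlk.symm hjk)).symm

end Vale.Agent.P193.Steinberg
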